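import Vale.Agent.P031.PNT.Main
import Vale.Agent.P031.Basic
import Vale.Agent.P031.Sieve
import Vale.Agent.P031.Abnormal
import Vale.Agent.P031.Total
import Vale.Agent.P031.Entropy.Bad
import Vale.Agent.P031.Entropy.Viol
import Vale.Agent.P031.Pairs
import Vale.Agent.P031.Upper
import Vale.Agent.P031.Lower
import Vale.Agent.P031.Volume
import Vale.Agent.P031.Assembly.Final

/-!
The question of Erdős and Hall: the number `V x` of distinct totient values up to `x`
satisfies `V (c * x) / V x → c` for every fixed `c > 1`.
-/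

open Filter
open scoped Topology

namespace Vale.Agent.Results.P031.RatioLimit

theorem result :
    ∀ c : ℝ, 1 < c → Tendsto
      (fun x : ℝ =>
        (Set.ncard {v : ℕ | (v : ℝ) ≤ c * x ∧ ∃ n : ℕ, 1 ≤ n ∧ Nat.totient n = v} : ℝ) /
        (Set.ncard {v : ℕ | (v : ℝ) ≤ x ∧ ∃ n : ℕ, 1 ≤ n ∧ Nat.totient n = v} : ℝ))
      atTop (𝓝 c) :=
  have hAb : _root_.P031.AbnormalStatement := _root_.P031.abnormal _root_.P031.sieve _root_.P031.cell_mass _root_.P031.smooth
  have hTot : _root_.P031.TotalStatement := _root_.P031.total _root_.P031.cell_mass hAb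
  have hExc : _root_.P031.ExceptionalStatement := _root_.P031.exceptional _root_.P031.cell_mass hAb
  _root_.P031.Assembly.main _root_.Vale.Agent.P031.PNT.pnt_ratio _root_.P031.smooth hAb hTot hExc
    (_root_.P031.viol _root_.P031.cell_mass) (_root_.P031.PairCnt.pairCount _root_.P031.sieve _root_.P031.cell_mass)
    (_root_.P031.regularity _root_.P031.volume_regularity
      (_root_.P031.upper _root_.P031.cell_mass hTot (_root_.P031.bad _root_.P031.cell_mass hExc))
      (_root_.P031.lower _root_.P031.cell_mass hAb (_root_.P031.PairCnt.pairWeight _root_.P031.sieve _root_.P031.cell_mass)))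

end Vale.Agent.Results.P031.RatioLimit
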